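import Vale.Agent.P271.F507.Count

/-!
# P271: the counting lemma with truncated degrees

Same as `F507.count_main`, with `min (deg ξ) T'` instead of `deg ξ`: the simplex minimiser only uses
degrees `≤ (d! |A|) ^ (1/d) ≤ d |A| ≤ T'`.
-/

set_option linter.all false

open Finset

namespace Vale.Agent.P271.F507

/-- bathtub inequality, truncated -/
theorem mul_card_le_trunc {d : ℕ} (A : Finset (Fin d → ℕ)) (T T' : ℕ) (hTT : T ≤ T') :
    T * A.card ≤ ∑ ξ ∈ A, min (deg ξ) T' + (T + d).choose (d + 1) := by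
  classical
  have h1 : ∀ ξ : Fin d → ℕ,
      T ≤ min (deg ξ) T' + ((range T).filter (fun t => deg ξ ≤ t)).card := by
    intro ξ
    by_cases h : T ≤ deg ξ
    · have : T ≤ min (deg ξ) T' := le_min h hTT
      omega
    · push Not at h
      have : (range T).filter (fun t => deg ξ ≤ t) = Ico (deg ξ) T := by
        ext t
        simp only [mem_filter, mem_range, mem_Ico]
        omega
      rw [this, Nat.card_Ico]
      have h' : min (deg ξ) T' = deg ξ := min_eq_left (by omega)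
      omega
  have h2 : T * A.card ≤
      ∑ ξ ∈ A, (min (deg ξ) T' + ((range T).filter (fun t => deg ξ ≤ t)).card) := by
    calc T * A.card = ∑ ξ ∈ A, T := by rw [Finset.sum_const, smul_eq_mul, mul_comm]
      _ ≤ _ := Finset.sum_le_sum fun ξ _ => h1 ξ
  rw [Finset.sum_add_distrib] at h2
  have h3 : ∑ ξ ∈ A, ((range T).filter (fun t => deg ξ ≤ t)).card =
      ∑ t ∈ range T, (A.filter (fun ξ => deg ξ ≤ t)).card := by
    simp only [Finset.card_filter]
    rw [Finset.sum_comm]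
  have h4 : ∑ t ∈ range T, (A.filter (fun ξ => deg ξ ≤ t)).card ≤ (T + d).choose (d + 1) := by
    calc _ ≤ ∑ t ∈ range T, (t + d).choose d :=
          Finset.sum_le_sum fun t _ => card_filter_deg_le A t
      _ = _ := by
        cases T with
        | zero => simp
        | succ T => rw [Nat.sum_range_add_choose]; congr 1; omega
  omega

/-- the simplex minimises the sum of truncated degrees (asymptotic form) -/
theorem sum_deg_ge_trunc {d : ℕ} (A : Finset (Fin d → ℕ)) {R : ℝ} (hR : 0 ≤ R)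
    (hRd : R ^ d = (d.factorial : ℝ) * A.card) (T' : ℕ) (hT' : R ≤ T') :
    (d : ℝ) / (d + 1) * R * A.card - (d + 1) * A.card ≤ ∑ ξ ∈ A, ((min (deg ξ) T' : ℕ) : ℝ) := by
  have hn : (0 : ℝ) ≤ A.card := Nat.cast_nonneg _
  have hd1 : (0 : ℝ) < (d : ℝ) + 1 := by positivity
  have hsum0 : (0 : ℝ) ≤ ∑ ξ ∈ A, ((min (deg ξ) T' : ℕ) : ℝ) :=
    Finset.sum_nonneg fun _ _ => Nat.cast_nonneg _
  by_cases hc : R < d
  · have h1 : (d : ℝ) / (d + 1) * R ≤ d + 1 := by
      have : (d : ℝ) / (d + 1) ≤ 1 := by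
        rw [div_le_one hd1]; linarith
      calc (d : ℝ) / (d + 1) * R ≤ 1 * R := by gcongr
        _ ≤ d + 1 := by linarith
    have h2 := mul_le_mul_of_nonneg_right h1 hn
    linarith
  · push Not at hc
    have hfl : d ≤ ⌊R⌋₊ := Nat.le_floor hc
    obtain ⟨T, hT⟩ := Nat.exists_eq_add_of_le hfl
    have hTR : ((T + d : ℕ) : ℝ) ≤ R := by
      rw [show T + d = ⌊R⌋₊ by omega]
      exact Nat.floor_le hR
    have hTT : T ≤ T' := by
      have : ((T + d : ℕ) : ℝ) ≤ T' := hTR.trans hT'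
      have h2 : T + d ≤ T' := by exact_mod_cast this
      omega
    have h1 := mul_card_le_trunc A T T' hTT
    have hTR2 : R - 1 - d ≤ (T : ℝ) := by
      have := Nat.lt_floor_add_one R
      rw [hT] at this
      push_cast at this
      linarith
    have h2 : (((T + d).choose (d + 1) : ℕ) : ℝ) ≤ R * A.card / (d + 1) := by
      calc (((T + d).choose (d + 1) : ℕ) : ℝ)
          ≤ ((T + d : ℕ) : ℝ) ^ (d + 1) / ((d + 1).factorial : ℝ) :=
            Nat.choose_le_pow_div _ _
        _ ≤ R ^ (d + 1) / ((d + 1).factorial : ℝ) := by gcongr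
        _ = R * A.card / (d + 1) := by
          rw [pow_succ, hRd, Nat.factorial_succ]
          push_cast
          have : (d.factorial : ℝ) ≠ 0 := by exact_mod_cast Nat.factorial_ne_zero d
          field_simp
    have h1' : (T : ℝ) * A.card ≤ ∑ ξ ∈ A, ((min (deg ξ) T' : ℕ) : ℝ) +
        (((T + d).choose (d + 1) : ℕ) : ℝ) := by
      exact_mod_cast h1
    have h3 := mul_le_mul_of_nonneg_right hTR2 hn
    have h4 : (d : ℝ) / (d + 1) * R * A.card = R * A.card - R * A.card / (d + 1) := by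
      field_simp
      ring
    rw [h4]
    nlinarith

/-- `(d! n) ^ (1/d) ≤ d n` -/
theorem root_le {d : ℕ} (hd : 0 < d) (n : ℕ) :
    ((d.factorial : ℝ) ^ ((1 : ℝ) / d)) * ((n : ℝ) ^ ((1 : ℝ) / d)) ≤ (d : ℝ) * n := by
  have hdR : (0 : ℝ) < d := by exact_mod_cast hd
  have h1 : ((d.factorial : ℝ) ^ ((1 : ℝ) / d)) ≤ d := by
    have h2 : (d.factorial : ℝ) ≤ (d : ℝ) ^ d := by exact_mod_cast Nat.factorial_le_pow d
    calc ((d.factorial : ℝ) ^ ((1 : ℝ) / d)) ≤ (((d : ℝ) ^ d) ^ ((1 : ℝ) / d)) :=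
          Real.rpow_le_rpow (by positivity) h2 (by positivity)
      _ = d := by
        rw [one_div, Real.pow_rpow_inv_natCast hdR.le (by omega)]
  have h3 : ((n : ℝ) ^ ((1 : ℝ) / d)) ≤ n := by
    rcases Nat.eq_zero_or_pos n with rfl | hn
    · have h4 : (1 : ℝ) / d ≠ 0 := by positivity
      simp only [Nat.cast_zero]
      rw [Real.zero_rpow h4]
    · calc ((n : ℝ) ^ ((1 : ℝ) / d)) ≤ (n : ℝ) ^ (1 : ℝ) := by
            apply Real.rpow_le_rpow_of_exponent_le
            · exact_mod_cast hn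
            · rw [div_le_one hdR]; exact_mod_cast hd
        _ = n := Real.rpow_one _
  exact mul_le_mul h1 h3 (by positivity) hdR.le

/-- **The counting lemma with truncated degrees.** -/
theorem count_main_trunc {d : ℕ} (hd : 0 < d) {ι : Type*} (s : Finset ι)
    (A : ℕ → ι → Finset (Fin d → ℕ)) (B : Finset (Fin d → ℕ)) (hB : B.Nonempty) (ρ : ℕ)
    (hAB : ∀ M, ∀ a ∈ s, ∀ ξ ∈ A M a, ∀ η ∈ B, ∀ ε : Fin d → ℕ, (∀ i, ε i ≤ 1) →
      ξ + η + ε ∈ A (M + ρ) a)
    (K m : ℕ) (hK : K * ρ ≤ m) (T' : ℕ) (hT' : ∀ a ∈ s, d * (A m a).card ≤ T') :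
    (d : ℝ) * ((d.factorial : ℝ) ^ ((1 : ℝ) / d)) * ((B.card : ℝ) ^ ((1 : ℝ) / d)) *
        ∑ k ∈ range K, ∑ a ∈ s, ((A (m - (k + 1) * ρ) a).card : ℝ)
      - (d + 1) * ∑ a ∈ s, ((A m a).card : ℝ) ≤
    ∑ a ∈ s, ∑ ξ ∈ A m a, ((min (deg ξ) T' : ℕ) : ℝ) := by
  have hdR : (0 : ℝ) < d := by exact_mod_cast hd
  set b : ℝ := (B.card : ℝ) ^ ((1 : ℝ) / d) with hb
  have hb0 : 0 ≤ b := by positivity
  set f : ℝ := (d.factorial : ℝ) ^ ((1 : ℝ) / d) with hf
  have hf0 : 0 ≤ f := by positivity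
  have hfd : f ^ d = d.factorial := by
    rw [hf, ← Real.rpow_natCast, ← Real.rpow_mul (by positivity)]
    rw [one_div, inv_mul_cancel₀ hdR.ne', Real.rpow_one]
  have main : ∀ a ∈ s,
      (d : ℝ) * f * b * ∑ k ∈ range K, ((A (m - (k + 1) * ρ) a).card : ℝ)
        - (d + 1) * ((A m a).card : ℝ) ≤ ∑ ξ ∈ A m a, ((min (deg ξ) T' : ℕ) : ℝ) := by
    intro a ha
    set n : ℕ → ℝ := fun M => ((A M a).card : ℝ) with hn
    set y : ℕ → ℝ := fun M => ((A M a).card : ℝ) ^ ((1 : ℝ) / d) with hy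
    have hy0 : ∀ M, 0 ≤ y M := fun M => by simp only [hy]; positivity
    have hyn : ∀ M, y M ^ d = n M := by
      intro M
      simp only [hy, hn]
      rw [← Real.rpow_natCast, ← Real.rpow_mul (by positivity)]
      rw [one_div, inv_mul_cancel₀ hdR.ne', Real.rpow_one]
    have hstep : ∀ M, 0 < n M → y M + b ≤ y (M + ρ) := by
      intro M hM
      have hne : (A M a).Nonempty := by
        rw [← Finset.card_pos]
        simp only [hn] at hM
        exact_mod_cast hM
      exact discrete_bm hd hne hB (hAB M a ha)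
    have h1 := telescope n y hy0 hyn hd hb0 hstep K m hK
    have hroot : f * y m ≤ T' := by
      have h7 := root_le hd (A m a).card
      have h8 : (d : ℝ) * ((A m a).card : ℝ) ≤ T' := by exact_mod_cast hT' a ha
      exact h7.trans h8
    have h2 := sum_deg_ge_trunc (A m a) (R := f * y m) (mul_nonneg hf0 (hy0 m))
      (by rw [mul_pow, hfd, hyn m]) T' hroot
    have h3 : (d : ℝ) / (d + 1) * (f * y m) * ((A m a).card : ℝ) =
        (d : ℝ) / (d + 1) * f * y m ^ (d + 1) := by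
      have : ((A m a).card : ℝ) = y m ^ d := (hyn m).symm
      rw [this, pow_succ]
      ring
    rw [h3] at h2
    have h4 : (d : ℝ) * f * b * ∑ k ∈ range K, n (m - (k + 1) * ρ) ≤
        (d : ℝ) / (d + 1) * f * y m ^ (d + 1) := by
      have h5 := mul_le_mul_of_nonneg_left h1 (show 0 ≤ (d : ℝ) / (d + 1) * f by positivity)
      refine le_trans (le_of_eq ?_) h5
      field_simp
    linarith
  have h6 := Finset.sum_le_sum main
  refine le_trans (le_of_eq ?_) h6
  rw [Finset.sum_sub_distrib, Finset.sum_comm, ← Finset.mul_sum, ← Finset.mul_sum]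

end Vale.Agent.P271.F507
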